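import Vale.Agent.P218L.T1

/-! Block T in the weak class, with the Gauss-Bonnet estimate in parabolic regions only. -/

open MeasureTheory Set Filter Topology Metric
open scoped ENNReal NNReal RealInnerProductSpace ContDiff

namespace Vale.Agent.P218L

open P218FT P218G P218G.CL P218G.WL
open Vale.Agent.P218FT.Conv hiding GD exists_gd exists_cyl exists_graphs comp_loc comp_proof

variable {ι : Type} {D : ℝ} {μ : ℝ → Measure E3} {M : ℝ → Set E3} {J : Set ℝ}

theorem LB.scale {G lam r : ℝ} {N : Set E3} {x₀ p : E3} (hl : 0 < lam) (hN : MeasurableSet N)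
    (h : LB G N (x₀ + lam⁻¹ • p) (r / lam)) : LB G (scaleSet lam x₀ N) p r := by
  rw [LB, lintegral_a2_scale hl hN, lintegral_Hv_sq_scale hl hN, mul_div_assoc]
  exact h

theorem slim_lgb {U : Filter ι} [U.NeBot] {N : ι → Set E3} {S : Set E3} (h : SLimS U N S)
    (hN : ∀ᶠ i in U, IsSurf (N i)) {G : ℝ} (hG : ∀ p r, 0 < r → ∀ᶠ i in U, LB G (N i) p r) :
    LGB G S := by
  intro p r hr
  have c1 : Continuous fun q : E3 × (E3 →L[ℝ] E3) × E3 × ℝ => q.2.2.2 := by fun_prop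
  have c2 : Continuous fun q : E3 × (E3 →L[ℝ] E3) × E3 × ℝ => ‖q.2.2.1‖ ^ 2 := by fun_prop
  refine lintegral_ball_le hr fun s hs0 hs => ?_
  have s1 : s < (s + r) / 2 := by linarith
  have s2 : 2 * ((s + r) / 2) < 2 * r := by linarith
  refine (le_cint (p := p) h.isSurf c1 s1).trans (le_trans (le_of_tendsto_of_tendsto
    (tendsto_cint h hN h.isSurf c1 s1) (ENNReal.Tendsto.const_mul (a := ENNReal.ofReal G)
      ((tendsto_cint (p := p) h hN h.isSurf c2 s2).const_add 1) (Or.inr ENNReal.ofReal_ne_top)) ?_)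
    ?_)
  · filter_upwards [hN, hG p ((s + r) / 2) (by linarith)] with i a1 a2
    refine (cint_le a1 c1 s1).trans (le_trans a2 ?_)
    gcongr
    exact le_cint a1 c2 s2
  · gcongr
    exact cint_le h.isSurf c2 s2

theorem conv_l {G ε r C a b : ℝ} {x₀ : E3} (hε : 0 < ε) (hε1 : ε ≤ 1) (hr : 0 < r) (hC : 0 < C)
    (hab : a < b) (hM : InL D G ε r C μ M J a b x₀)
    (U : Ultrafilter ι) {lam : ι → ℝ} (hl : Tendsto lam U atTop) :
    ∃ S : Set E3, IsShr S ∧ InC D G (ssFlow S) (Iio 0) ∧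
      SLim U (fun i => scaleFlow (lam i) x₀ b M) (ssFlow S) (Iio 0) ∧
      Tendsto (fun r => densM μ x₀ b r) (𝓝[>] 0) (𝓝 (gA S 0 1)) ∧
      ∀ s < 0, ∀ φ : E3 → ℝ, Continuous φ → HasCompactSupport φ →
        Tendsto (fun i => ∫ x, φ x ∂(scaleM (lam i) x₀ b μ s)) U
          (𝓝 (∫ x, φ x ∂(area (ssFlow S s)))) := by
  have h := hM.wf
  have hT := t1 hε hε1 hr hC hab hM
  have hmono : MonotoneOn (fun r => densM μ x₀ b r) (Ioo 0 √(b - a)) :=
    fun ρ hρ ρ' hρ' hle => monoW_proof D μ M J _ h x₀ b ρ ρ' hρ.1 hle fun u hu => by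
      have h1 := (Real.lt_sqrt hρ'.1.le).1 hρ'.2
      have h2 := pow_pos hρ.1 2
      exact ⟨by linarith [hu.1], by linarith [hu.2]⟩
  clear hε hε1 hr hC
  have l0 := hl.eventually_gt_atTop 0
  have hin : ∀ s < 0, ∀ᶠ i in (U : Filter ι), b + s / lam i ^ 2 ∈ Ioo a b :=
    fun s hs => (ev_time hl hab s).mono fun i hi => ⟨hi.2 s le_rfl, tup_lt hi.1 hs⟩
  obtain ⟨L, hL, hS⟩ := comp_on U (fun i => scaleFlow (lam i) x₀ b M)
    (fun i => scaleReg (lam i) x₀ b {p | p.1 ∈ Ioo a b ∧ Reg M p}) isOpen_Iio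
    (l0.mono fun i hi => (mcfOn h).scale hi x₀ b)
    (fun t ht x => by
      have ht' : t < 0 := ht
      have q0 : 0 < √(-(t / 2)) := Real.sqrt_pos.2 (by linarith)
      obtain ⟨r, C, t₁, r0, C0, h1, h2⟩ := hT ((‖x‖ + 1) / √(-(t / 2)))
      refine ⟨Ioo (2 * t) (t / 2) ×ˢ ball x 1, prod_mem_nhds (Ioo_mem_nhds (by linarith)
        (by linarith)) (ball_mem_nhds x one_pos), r * √(-(t / 2)), C / √(-(t / 2)),
        by positivity, ?_⟩
      filter_upwards [ev_time hl h1 (2 * t), ev_time hl hab (2 * t)] with i hi hi'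
      have l0 := hi.1
      have key : ∀ p ∈ Ioo (2 * t) (t / 2) ×ˢ ball x 1, p.2 ∈ scaleFlow (lam i) x₀ b M p.1 →
          Reg M (b + p.1 / lam i ^ 2, x₀ + (lam i)⁻¹ • p.2) ∧
          TwoPt (scaleFlow (lam i) x₀ b M p.1) p.2 (r * √(-(t / 2))) (C / √(-(t / 2))) := by
        intro p hp hm
        have hq : √(-(t / 2)) ≤ √(-p.1) := Real.sqrt_le_sqrt (by linarith [hp.1.2])
        have hy : ‖p.2‖ ≤ ‖x‖ + 1 := by
          have h3 := mem_ball_iff_norm.1 hp.2
          linarith [norm_le_norm_add_norm_sub' p.2 x, norm_sub_rev p.2 x]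
        have h3 := h2 (b + p.1 / lam i ^ 2) ⟨hi.2 _ hp.1.1.le, tup_lt l0 (by linarith [hp.1.2])⟩
          _ hm (by
            rw [add_sub_cancel_left, norm_smul, norm_inv, Real.norm_eq_abs, abs_of_pos l0,
              sqrt_tup l0, ← mul_div_assoc, inv_mul_eq_div]
            refine div_le_div_of_nonneg_right (hy.trans ?_) l0.le
            rw [div_mul_eq_mul_div, le_div_iff₀ q0]
            exact mul_le_mul_of_nonneg_left hq (by positivity))
        rw [sqrt_tup l0] at h3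
        refine ⟨h3.1, (twoPt_scale l0 hm _ _).2 (twoPt_mono h3.2 ?_ ?_)⟩
        · rw [mul_div_assoc]
          gcongr
        · rw [div_div_eq_mul_div, div_mul_eq_mul_div]
          gcongr
      refine ⟨fun p hp => ?_, fun p hp hm => (key p hp hm).2⟩
      have hI : b + p.1 / lam i ^ 2 ∈ Ioo a b :=
        ⟨hi'.2 _ hp.1.1.le, tup_lt l0 (by linarith [hp.1.2])⟩
      refine ⟨hI, ?_⟩
      by_cases hm : p.2 ∈ scaleFlow (lam i) x₀ b M p.1
      · exact (key p hp hm).1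
      · exact reg_of_notMem h hI hm)
  have hsl : ∀ s < 0, ∃ τ : ι → ℝ, Tendsto τ U (𝓝 s) ∧ (∀ᶠ i in U, b + τ i / lam i ^ 2 ∈ J) ∧
      SLimS U (fun i => scaleFlow (lam i) x₀ b M (τ i)) (L s) ∧
      (∀ᶠ i in U, IsSurf (scaleFlow (lam i) x₀ b M (τ i))) ∧
      ∀ᶠ i in U, AreaRatio D (scaleFlow (lam i) x₀ b M (τ i)) := fun s hs => by
    obtain ⟨τ, t1, t2⟩ := exists_times hl (hin s hs) (F := fun t => 𝓝[<] t)
      (fun t ht => h.frequently_left ht) (fun t => nhdsWithin_le_nhds) (P := fun _ _ => True)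
      (by simp)
    exact ⟨τ, t1, t2.mono fun i hi => hi.1, hS.slice t1 hs, by
      filter_upwards [l0, t2] with i a1 a2 using (h.isSurf a2.1).scale a1.ne' x₀, by
      filter_upwards [l0, t2] with i a1 a2 using (h.areaRatio a2.1).scale a1 x₀⟩
  have hA : ∀ s < 0, AreaRatio D (L s) := fun s hs => by
    obtain ⟨τ, -, -, t3, t4, t5⟩ := hsl s hs
    exact t3.ratio t4 t5
  have hG' : ∀ s < 0, LGB G (L s) := fun s hs => by
    obtain ⟨τ, t1, t2, t3, t4, -⟩ := hsl s hs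
    refine slim_lgb t3 t4 fun p ρ hρ => ?_
    have c0 : 0 < √(-s) := Real.sqrt_pos.2 (neg_pos.2 hs)
    have c1 : Tendsto (fun i => √(-s) / lam i) U (𝓝[>] 0) :=
      tendsto_nhdsWithin_iff.2 ⟨tendsto_const_nhds.div_atTop hl,
        l0.mono fun i a1 => div_pos c0 a1⟩
    filter_upwards [l0, t2, c1.eventually (hM.lgb ((‖p‖ + 2 * ρ) / √(-s))),
      t1.eventually (lt_mem_nhds (show 2 * s < s by linarith)),
      t1.eventually (gt_mem_nhds (show s < s / 4096 by linarith))] with i a1 a2 a3 a4 a5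
    have c2 : (√(-s) / lam i) ^ 2 = -s / lam i ^ 2 := by
      rw [div_pow, Real.sq_sqrt (neg_pos.2 hs).le]
    have c3 : 0 < lam i ^ 2 := by positivity
    refine LB.scale a1 (h.isSurf a2).1.measurableSet (a3 _ a2 ?_ ?_ _ _ (div_pos hρ a1) ?_)
    · have : 2 * s / lam i ^ 2 ≤ τ i / lam i ^ 2 := by gcongr
      rw [c2]
      linarith [show 2 * s / lam i ^ 2 = -(2 * (-s / lam i ^ 2)) by ring]
    · have : τ i / lam i ^ 2 ≤ s / 4096 / lam i ^ 2 := by gcongr
      rw [c2]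
      linarith [show s / 4096 / lam i ^ 2 = -(-s / lam i ^ 2 / 4096) by ring]
    · rw [add_sub_cancel_left, norm_smul, norm_inv, Real.norm_eq_abs, abs_of_pos a1]
      refine le_of_eq ?_
      field_simp
  have q0 : 0 < √(b - a) := Real.sqrt_pos.2 (sub_pos.2 hab)
  have hΘ := hmono.tendsto_nhdsWithin_Ioo_right (nonempty_Ioo.2 q0)
    ⟨0, by rintro _ ⟨r, -, rfl⟩; exact densM_nonneg _ _ _ _⟩
  set Θ := sInf ((fun r => densM μ x₀ b r) '' Ioo 0 √(b - a))
  have hc : ∀ s < 0, gA (L s) 0 √(0 - s) = Θ := fun s hs => by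
    have s0 : 0 < √(0 - s) := Real.sqrt_pos.2 (by linarith)
    obtain ⟨τ, t1, t2, t3, t4, t5⟩ := hsl s hs
    have r1 : Tendsto (fun i => √(0 - τ i)) U (𝓝 √(0 - s)) := (t1.const_sub 0).sqrt
    have r2 : ∀ᶠ i in (U : Filter ι), τ i < 0 := t1.eventually (gt_mem_nhds hs)
    refine tendsto_nhds_unique (t3.tendsto_gA t4 t5 (y₀ := 0) tendsto_const_nhds r1 s0) ?_
    have h1 : Tendsto (fun i => √(0 - τ i) / lam i) U (𝓝[>] 0) :=
      tendsto_nhdsWithin_iff.2 ⟨r1.div_atTop hl, by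
        filter_upwards [l0, r2] with i a1 a2 using div_pos (Real.sqrt_pos.2 (by linarith)) a1⟩
    refine (hΘ.comp h1).congr' ?_
    filter_upwards [l0, r2, t2] with i hi a1 a2
    rw [scaleFlow_apply, gA_scale hi, Function.comp_apply, densM, div_pow,
      Real.sq_sqrt (by linarith), smul_zero, add_zero, zero_sub, neg_div, sub_neg_eq_add,
      h.eq _ a2]
    rfl
  have hV := fun s hs x hx => relV_eq_zero hL (fun t ht => hA t ht) hc (s := s) hs (x := x) hx
  have hss := fun s (hs : s ∈ Iio (0 : ℝ)) => self_similar hL hV (s := s) hs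
  have m1 : (-1 : ℝ) < 0 := by norm_num
  refine ⟨L (-1), ⟨hL.isSurf m1, fun x hx => by simpa using hV (-1) m1 x hx⟩,
    ⟨hL.congr hss, fun t ht => hss t ht ▸ hA t ht, fun t ht => hss t ht ▸ hG' t ht⟩,
    hS.congr isOpen_Iio hss, ?_, fun s hs φ hφ hφc => ?_⟩
  · have := hc (-1) m1
    rw [zero_sub, neg_neg, Real.sqrt_one] at this
    rwa [this]
  · exact weak_of_slim h hl (hS.congr isOpen_Iio hss) hs (hin s hs) hφ hφc

end Vale.Agent.P218L
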