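import Vale.Agent.P218G.St

/-! Almost regular flows with a bound for the genus at the parabolic scale only. -/

open MeasureTheory Set Filter Topology Metric

namespace Vale.Agent.P218L.St

open Vale.Agent.P218G.St

variable {E : Type} [NormedAddCommGroup E] [InnerProductSpace ℝ E] [FiniteDimensional ℝ E]
  [MeasurableSpace E] [BorelSpace E]

/-- almost regular at `(x₀, t₀)`: almost every time shortly before `t₀` is regular, and there is a
number `g` such that, for every `R` and all regular times `t < t₀` close to `t₀`, the time slice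
coincides in the ball `B(x₀, R √(t₀ - t))` with a closed surface of genus at most `g` -/
def IsAlmostRegularAt (μ : ℝ → Measure E) (x₀ : E) (t₀ : ℝ) : Prop :=
  (∃ a < t₀, ∀ᵐ t : ℝ, t ∈ Ioo a t₀ → IsRegularTime μ t) ∧
    ∃ g : ℝ, ∀ R : ℝ, ∀ᶠ t in 𝓝[<] t₀, IsRegularTime μ t → ∀ N : Set E, IsSurf N → μ t = hm N →
      ∃ N' : Set E, IsSurf N' ∧ IsCompact N' ∧
        N' ∩ ball x₀ (R * √(t₀ - t)) = N ∩ ball x₀ (R * √(t₀ - t)) ∧ totalGenus N' ≤ g

end Vale.Agent.P218L.St
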