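import Vale.Agent.P218L.Conv
import Vale.Agent.P218L.St
import Vale.Agent.P218G.StFin

/-! Uniqueness of tangent flows for almost regular flows with a local bound for the genus. -/

open MeasureTheory Set Filter Topology Metric
open scoped ENNReal NNReal

namespace Vale.Agent.P218L

open Vale.Agent.P218 Vale.Agent.P218G Vale.Agent.P218G.Lit Vale.Agent.P218G.Rg
open Vale.Agent.P218FT (E3 IsSurf IsShr InC ssFlow area)
open Vale.Agent.P218F.Dyn (hm)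

variable {μ : ℝ → Measure E3} {a b g R : ℝ} {x₀ : E3}

theorem bridge (hμ : IsIntegralBrakkeFlow 2 μ) (hR : μ 0 (closedBall 0 R)ᶜ = 0)
    (hU : IsUnitRegular μ) (ha : 0 < a) (hae : ∀ᵐ t : ℝ, t ∈ Ioo a b → IsRegularTime μ t)
    (hg : ∀ K : ℝ, ∀ᶠ t in 𝓝[<] b, IsRegularTime μ t → ∀ N, IsSurf N → μ t = hm N →
      ∃ N' : Set E3, IsSurf N' ∧ IsCompact N' ∧
        N' ∩ ball x₀ (K * √(b - t)) = N ∩ ball x₀ (K * √(b - t)) ∧ genus N' ≤ g) :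
    ∃ D G ε r C : ℝ, 0 < ε ∧ ε ≤ 1 ∧ 0 < r ∧ 0 < C ∧
      InL D G ε r C (fun t => cE • μ t) (Spt μ) (regT μ a b) a b x₀ := by
  have h0 := mass_lt hμ hR
  have h : ∀ a : ℝ, 0 < a → ∃ D, GS μ a D := fun a ha => ⟨_, gs_proof μ hμ h0 a ha⟩
  obtain ⟨D, hD⟩ := h a ha
  have hb := bdd_proof μ hμ h0 R hR
  have hwf := Br.wf hμ h ha hD (Br.isOpen_regT h ha.le hb) hae
  obtain ⟨ε, r, C, hε, hε1, hr, hC, hWh⟩ := Br.white weakWhite_all D
  obtain ⟨G, hG⟩ := lgb_genus_loc (cE * (Real.exp (1 / 4) * D)) g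
  refine ⟨_, G, ε, r, C, hε, hε1, hr, hC, hwf, hWh μ a b hμ h0 hU h ha.le hD, fun K => ?_⟩
  obtain ⟨a', h1, h2⟩ := mem_nhdsLT_iff_exists_Ioo_subset.1 (hg (64 * |K|))
  filter_upwards [P218FT.TT.ev_time h1 2, self_mem_nhdsWithin] with lam l1 l0 t ht t1 t2 p ρ hρ hp
  have l2 : 0 < lam := l0
  have hS := hwf.mcf.isSurf ht
  obtain ⟨N, hN, hc, e, h3⟩ := h2 ⟨by linarith, ht.1.2⟩ ht.2 _ hS (Br.eq_hm h ha.le ht)
  have h4 : lam / 64 ≤ √(b - t) := Real.le_sqrt_of_sq_le (by linarith [div_pow lam 64 2])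
  have s2 : ball p (2 * ρ) ⊆ ball x₀ (64 * |K| * √(b - t)) := by
    refine ball_subset_ball' ?_
    rw [dist_eq_norm]
    nlinarith [mul_le_mul_of_nonneg_right (le_abs_self K) l2.le,
      mul_le_mul_of_nonneg_left h4 (abs_nonneg K)]
  have s1 : ball p ρ ⊆ ball x₀ (64 * |K| * √(b - t)) :=
    (ball_subset_ball (by linarith)).trans s2
  have := hG N hN hc h3 p ρ hρ (by
    rw [← Measure.restrict_apply_self, FG.area_eq e measurableSet_ball s2,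
      Measure.restrict_apply_self, ← hwf.eq t ht]
    exact hwf.ratio t ht.1 p _ (by positivity))
  rwa [FG.lint_eq hN isOpen_ball e measurableSet_ball s1 fun _ A => ENNReal.ofReal A,
    FG.lint_eq hN isOpen_ball e measurableSet_ball s2
      fun H _ => ENNReal.ofReal (‖H‖ ^ 2)] at this

theorem exists_shr (hμ : IsIntegralBrakkeFlow 2 μ) (hR : μ 0 (closedBall 0 R)ᶜ = 0)
    (hU : IsUnitRegular μ) (ha : 0 < a) (ht : a < b)
    (hae : ∀ᵐ t : ℝ, t ∈ Ioo a b → IsRegularTime μ t)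
    (hg : ∀ K : ℝ, ∀ᶠ t in 𝓝[<] b, IsRegularTime μ t → ∀ N, IsSurf N → μ t = hm N →
      ∃ N' : Set E3, IsSurf N' ∧ IsCompact N' ∧
        N' ∩ ball x₀ (K * √(b - t)) = N ∩ ball x₀ (K * √(b - t)) ∧ genus N' ≤ g) :
    ∃ (S : Set E3) (D G : ℝ), IsShr S ∧ InC D G (ssFlow S) (Iio 0) ∧
      hm S ∈ tangentSlices 2 μ x₀ b := by
  have h0 := mass_lt hμ hR
  obtain ⟨D, G, ε, r, C, hε, hε1, hr, hC0, hI⟩ := bridge hμ hR hU ha hae hg
  obtain ⟨T, H, hBF⟩ := H552.exists_BF hμ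
  obtain ⟨κ, ⟨S, h1, h2, rfl⟩, h3⟩ := Dyn.mem_tangentSlices (x₀ := x₀) hBF h0 (ha.trans ht)
    (P := fun κ => ∃ S, IsShr S ∧ InC D G (ssFlow S) (Iio 0) ∧ κ = hm S) fun U lam hl => by
      obtain ⟨S, e1, e2, -, -, e3⟩ := conv_l hε hε1 hr hC0 ht hI U hl
      have hc : hm S = cE⁻¹ • area S := by
        rw [← cE_hm, smul_smul, inv_mul_cancel₀ cE_pos.ne', one_smul]
      refine ⟨hm S, ⟨S, e1, e2, rfl⟩, ?_, fun φ hφ hφc => ?_⟩
      · have := P218FT.Chart.locFin_proof S e1.1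
        rw [hc]
        infer_instance
      · have e4 := (e3 (-1) (by norm_num) φ hφ hφc).const_mul (cE : ℝ)⁻¹
        have hne : (cE : ℝ) ≠ 0 := by exact_mod_cast cE_pos.ne'
        simp only [scaleM_smul, ss_one, ← cE_hm, integral_smul_nnreal_measure, NNReal.smul_def,
          smul_eq_mul, inv_mul_cancel_left₀ hne] at e4
        exact e4
  exact ⟨S, D, G, h1, h2, h3⟩

/-- **Almost regular points**, in the words of the statement -/
theorem concl (hμ : IsIntegralBrakkeFlow 2 μ) (hU : P218G.St.IsUnitRegular μ)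
    (hR : ∃ R : ℝ, μ 0 (closedBall 0 R)ᶜ = 0) {t₀ : ℝ} (ht : 0 < t₀)
    (h : St.IsAlmostRegularAt μ x₀ t₀) : TangentFlowUnique 2 μ x₀ t₀ ∧
      ∃ S, P218G.St.IsSelfShrinker S ∧ P218G.St.ConvergesTo μ x₀ t₀ S := by
  obtain ⟨R, hR⟩ := hR
  obtain ⟨⟨a, ha, h1⟩, g, h2⟩ := h
  have h3 : Ioo (max a (t₀ / 2)) t₀ ⊆ Ioo a t₀ := Ioo_subset_Ioo_left (le_max_left _ _)
  obtain ⟨S, D, G, e1, e2, e3⟩ := exists_shr (x₀ := x₀) hμ hR hU.lit
    (a := max a (t₀ / 2)) (g := g) (lt_max_of_lt_right (half_pos ht))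
    (max_lt ha (half_lt_self ht))
    (h1.mono fun t h h' => (P218G.St.isRegularTime_iff μ t).1 (h (h3 h')))
    fun K => (h2 K).mono fun t h h' => h ((P218G.St.isRegularTime_iff μ t).2 h')
  refine concl_lgb (P218F.Top.static_of_LS P218F.Fin.ls) hμ hU.lit ht (mass_lt hμ hR) e1
    (fun _ _ => ⟨G, ?_⟩) e3
  simpa only [ss_one] using e2.lgb (-1) (by norm_num)

/-- the global bound for the genus implies the local one -/
theorem at_of_on (hμ : IsIntegralBrakkeFlow 2 μ) (hR : ∃ R : ℝ, μ 0 (closedBall 0 R)ᶜ = 0)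
    {t₀ : ℝ} (ht : 0 < t₀) (ha : a < t₀) (h : P218G.St.IsAlmostRegularOn μ a t₀) :
    St.IsAlmostRegularAt μ x₀ t₀ := by
  obtain ⟨R, hR⟩ := hR
  obtain ⟨h1, g, h2⟩ := h
  have h0 := mass_lt hμ hR
  refine ⟨⟨a, ha, h1⟩, g, fun K => ?_⟩
  filter_upwards [Ioo_mem_nhdsLT (max_lt ha ht)] with t h3 h4 N hN h5
  have h6 : 0 < t := (le_max_right _ _).trans_lt h3.1
  have h7 : ∀ a : ℝ, 0 < a → ∃ D, GS μ a D := fun a ha => ⟨_, gs_proof μ hμ h0 a ha⟩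
  have h8 : t ∈ regT μ 0 t₀ := ⟨⟨h6, h3.2⟩, (P218G.St.isRegularTime_iff μ t).1 h4⟩
  have h9 : hm N = hm (Spt μ t) := h5.symm.trans (Br.eq_hm h7 le_rfl h8)
  have h10 := (Br.mcf h7 le_rfl (Br.isOpen_regT h7 le_rfl (bdd_proof μ hμ h0 R hR))).isSurf h8
  exact ⟨N, hN, (isCompact_closedBall 0 R).of_isClosed_subset hN.1
    ((subset_of_hm hN h10.1 h9).trans (bdd_proof μ hμ h0 R hR t h6)), rfl,
    h2 t ⟨(le_max_left _ _).trans_lt h3.1, h3.2⟩ h4 N hN h5⟩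

end Vale.Agent.P218L
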