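import Vale.Agent.P218G.TAllW

/-! The step lemma in the weak class, with the Gauss-Bonnet estimate in one ball only. -/

open MeasureTheory Set Filter Topology Metric
open scoped ENNReal NNReal RealInnerProductSpace ContDiff

namespace Vale.Agent.P218L

open P218FT P218G

/-- the local Gauss-Bonnet estimate in one ball -/
def LB (G : ℝ) (N : Set E3) (p : E3) (r : ℝ) : Prop :=
  ∫⁻ x in ball p r, ENNReal.ofReal (a2 N x) ∂(area N) ≤
    ENNReal.ofReal G * (1 + ∫⁻ x in ball p (2 * r), ENNReal.ofReal (‖Hv N x‖ ^ 2) ∂(area N))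

theorem LB.mono {G G' : ℝ} {N : Set E3} {p : E3} {r : ℝ} (h : LB G N p r) (hG : G ≤ G') :
    LB G' N p r := le_trans h (by gcongr)

/-- the step of the iteration -/
def StepL : Prop :=
  ∀ D G ε r C R Λ η : ℝ, 0 < ε → ε ≤ 1 → 0 < r → 0 < C → 16 ≤ R → 0 < η →
    ∃ m₀ δ : ℝ, 0 < m₀ ∧ 0 < δ ∧
    ∀ (μ : ℝ → Measure E3) (M : ℝ → Set E3) (J I : Set ℝ), WF D μ M J I → White ε r C μ M I →
      ∀ (c : E3) (t₁ t₂ lam m : ℝ),
      (∀ t ∈ J, t ∈ Icc (t₁ - lam ^ 2) t₂ → LB G (M t) c (2 * R * lam)) → 0 < lam → 0 < m →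
      m ≤ m₀ → Icc (t₁ - lam ^ 2) t₂ ⊆ I → lam ^ 2 / 2 ≤ t₂ - t₁ → t₂ - t₁ ≤ lam ^ 2 →
      dis2 M (Λ / lam ^ 2) c (4 * R * lam) (t₁ - lam ^ 2) t₂ ≤ ENNReal.ofReal (δ * lam ^ 2) →
      CovW M t₁ c (R * lam) (m * lam) (lam ^ 2 / 2) →
      CovW M t₂ c (R * lam / 4) (m * lam / 4) (η * lam ^ 2)

lemma total_a2 {M : ℝ → Set E3} {G a b r d : ℝ} (hG : 0 ≤ G) (hab : a ≤ b)
    (hd : 0 ≤ d) (x : E3) (h : ∀ t ∈ Icc a b, LB G (M t) x r)
    (hdis : diss M 0 x (2 * r) a b ≤ ENNReal.ofReal d) :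
    ∫⁻ s in Icc a b, ∫⁻ y in ball x r, ENNReal.ofReal (max (a2 (M s) y) 0) ∂(area (M s)) ≤
      ENNReal.ofReal (G * ((b - a) + d)) := by
  have h1 : ∀ s ∈ Icc a b, ∫⁻ y in ball x r, ENNReal.ofReal (max (a2 (M s) y) 0) ∂(area (M s)) ≤
      ENNReal.ofReal G * (1 + ∫⁻ y in ball x (2 * r),
        ENNReal.ofReal (‖Hv (M s) y‖ ^ 2 - 0) ∂(area (M s))) := by
    intro s hs
    simp only [sub_zero]
    refine le_trans (le_of_eq ?_) (h s hs)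
    congr 1
    ext y
    rcases le_total (a2 (M s) y) 0 with h2 | h2
    · rw [max_eq_right h2, ENNReal.ofReal_zero, ENNReal.ofReal_of_nonpos h2]
    · rw [max_eq_left h2]
  refine (setLIntegral_mono' measurableSet_Icc h1).trans ?_
  rw [lintegral_const_mul' _ _ ENNReal.ofReal_ne_top, lintegral_add_left measurable_const,
    setLIntegral_const, Real.volume_Icc, one_mul, ENNReal.ofReal_mul hG,
    ENNReal.ofReal_add (by linarith) hd]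
  gcongr
  exact hdis

open P218FT.Step P218G.StW in
theorem stepL_of (hB : BarrierW) (hBad : BadW) (hGap : GapW) : StepL := by
  intro D G ε r C R Λ η hε hε1 hr hC hR hη
  obtain ⟨D', hD1, hD2⟩ : ∃ D' : ℝ, D ≤ D' ∧ 0 < D' :=
    ⟨max D 1, le_max_left _ _, lt_max_of_lt_right one_pos⟩
  obtain ⟨G', hG1, hG2⟩ : ∃ G' : ℝ, G ≤ G' ∧ 0 < G' :=
    ⟨max G 1, le_max_left _ _, lt_max_of_lt_right one_pos⟩
  obtain ⟨Λ', hΛ1, hΛ2⟩ : ∃ Λ' : ℝ, Λ ≤ Λ' ∧ 0 < Λ' :=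
    ⟨max Λ 1, le_max_left _ _, lt_max_of_lt_right one_pos⟩
  obtain ⟨P, hP⟩ : ∃ P : ℝ, P = G' * (3 + 32 * Λ' * D' * R ^ 2) := ⟨_, rfl⟩
  have hP0 : 0 < P := by rw [hP]; positivity
  obtain ⟨L, hL⟩ : ∃ L : ℝ, L = 288 * P / η := ⟨_, rfl⟩
  have hL0 : 0 < L := by rw [hL]; positivity
  obtain ⟨σ, Γ, κ, hσ, hΓ, hκ, hBad⟩ := hBad D' ε r C L hε hε1 hr hC
  obtain ⟨θ, hθ0, hθ1, hθ2⟩ : ∃ θ : ℝ, 0 < θ ∧ θ ≤ 1 ∧ Λ' * D' * θ ≤ κ / 2 := by
    refine ⟨min 1 (κ / 2 / (Λ' * D')), by positivity, min_le_left _ _, ?_⟩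
    rw [mul_comm, ← le_div_iff₀ (by positivity)]
    exact min_le_right _ _
  obtain ⟨δ, hδ0, hδ1, hδ2⟩ : ∃ δ : ℝ, 0 < δ ∧ δ ≤ 1 ∧ δ ≤ η * κ / 64512 :=
    ⟨min 1 (η * κ / 64512), by positivity, min_le_left _ _, min_le_right _ _⟩
  refine ⟨θ / Γ, δ, by positivity, hδ0, ?_⟩
  intro μ M J I hwf hwh c t₁ t₂ lam m hLB hlam hm hmm hI ht1 ht2 hdiss hcov
  have hl2 : 0 < lam ^ 2 := by positivity
  have h := hwf.mono_D hD1
  have hlgb : ∀ t ∈ Icc (t₁ - lam ^ 2) t₂, LB G' (cut M J t) c (2 * R * lam) := fun t ht => by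
    by_cases hs : t ∈ J
    · rw [cut_of_mem hs]; exact (hLB t hs ht).mono hG1
    · rw [LB, area_cut hs]; simp
  replace hdiss : dis2 M (Λ' / lam ^ 2) c (4 * R * lam) (t₁ - lam ^ 2) t₂ ≤
      ENNReal.ofReal (δ * lam ^ 2) :=
    (dis2_mono (by gcongr) Subset.rfl le_rfl le_rfl).trans hdiss
  have hRl : 16 * lam ≤ R * lam := by gcongr
  have hθl : θ * lam ≤ lam := mul_le_of_le_one_left hlam.le hθ1
  have hθl2 : t₁ - lam ^ 2 + (θ * lam) ^ 2 ≤ t₁ := by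
    have : (θ * lam) ^ 2 ≤ lam ^ 2 := by gcongr
    linarith
  have hd0 := total_diss_le (M := cut M J) (c := c) (T₀ := t₁ - lam ^ 2) (t₂ := t₂) hD2.le hΛ2.le
    (show 0 < R by linarith) hlam hδ0.le hδ1 (by linarith) (by linarith) (fun s _ => ratio_cut h s)
    (by rw [diss_cut h hI]; exact diss_le_dis2.trans hdiss)
  have htot := total_a2 hG2.le (by linarith) (by positivity) c hlgb hd0
  have hPl : G' * (t₂ - (t₁ - lam ^ 2) + (1 + 32 * Λ' * D' * R ^ 2) * lam ^ 2) ≤ P * lam ^ 2 := by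
    rw [hP, mul_assoc G']
    exact mul_le_mul_of_nonneg_left (by linarith) hG2.le
  replace htot := htot.trans (ENNReal.ofReal_le_ofReal hPl)
  have hI' : Icc t₁ t₂ ⊆ I := (Icc_subset_Icc_left (by linarith)).trans hI
  have hΓm : ∀ s, s ≤ m * lam → Γ * s ≤ θ * lam := by
    intro s hs
    have h1 : Γ * m ≤ θ := by rwa [le_div_iff₀' (by linarith)] at hmm
    calc Γ * s ≤ Γ * (m * lam) := by gcongr
      _ = Γ * m * lam := by ring
      _ ≤ _ := by gcongr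
  refine final hR hlam hm (by positivity) ht1 ht2 (hB D' μ M J I h t₁ t₂ c (R * lam) (m * lam)
    (lam ^ 2 / 2) (η * lam ^ 2 / 8) (by linarith) hI' (by linarith) (by positivity) ?_ hcov ?_)
  · refine lt_of_le_of_lt ?_ (htot.trans_lt ENNReal.ofReal_lt_top)
    rw [← cut_congr h measurableSet_Icc hI' fun _ N =>
      ∫⁻ x in ball c (2 * (R * lam)), ENNReal.ofReal (a2 N x) ∂(area N), ← mul_assoc]
    refine le_trans (lintegral_mono fun s => lintegral_mono fun y => ?_)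
      (lintegral_mono_set (Icc_subset_Icc_left (by linarith)))
    exact ENNReal.ofReal_le_ofReal (le_max_left _ _)
  intro τ hτ hτm
  obtain ⟨-, hG2', hG3⟩ := hGap D' ε r C μ M J I hε h hwh
  have hτσ : τ / σ ≤ θ * lam := by
    have h1 : τ / σ ≤ τ := div_le_self hτ.le hσ
    have h2 : τ ≤ Γ * τ := le_mul_of_one_le_left hτ.le hΓ
    linarith [hΓm τ hτm]
  obtain ⟨K₀, hK₀, hK₀s, hK₀r, hK₀d⟩ := hG2'
    (track M (Icc t₁ t₂) ∩ Icc t₁ t₂ ×ˢ closedBall c (3 * (R * lam) / 2)) (τ / σ)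
    ((isCompact_Icc.prod (isCompact_closedBall _ _)).inter_left
      (h.isClosed_track isClosed_Icc hI')) (by positivity)
    (fun p hp => ⟨hp.1.2, (Icc_sub hθl2 hp.1.1 (by positivity) hτσ).trans hI⟩)
  refine ⟨K₀, hK₀, hK₀s.trans inter_subset_left, hK₀r, fun K hK hKs hKr => ?_⟩
  obtain ⟨ρ₀, hρ₀, hG3⟩ := hG3 K hK (fun p hp => ⟨hI' (hKs hp).1, (hKs hp).2⟩)
    fun p hp => (hKr p hp).1
  obtain ⟨r₀, C₀, hr₀, hC₀, hT⟩ := (mcfOn h).exists_twoPt_compact hK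
    fun p hp => ⟨hI' (hKs hp).1, (hKr p hp).1⟩
  obtain ⟨ρ₁, hρ₁, k1, k2, k3, k4⟩ : ∃ ρ₁ : ℝ, 0 < ρ₁ ∧ ρ₁ ≤ min r₀ (1 / (2 * C₀)) / σ ∧
      ρ₁ ≤ τ / σ ∧ ρ₁ ≤ ρ₀ / 2 ∧ ρ₁ ≤ lam :=
    ⟨min (min r₀ (1 / (2 * C₀)) / σ) (min (τ / σ) (ρ₀ / 2)), by positivity, min_le_left _ _,
      (min_le_right _ _).trans (min_le_left _ _), (min_le_right _ _).trans (min_le_right _ _),
      ((min_le_right _ _).trans (min_le_left _ _)).trans (hτσ.trans hθl)⟩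
  obtain ⟨lH, hlH, hmH, hcH⟩ := StW.H_part h hD2 c (R₁ := 3 * (R * lam) / 2) (t₁ := t₁)
    (θ := θ * lam) hI hκ (by positivity) (by positivity) hρ₁ (by linarith) hθl2 (by
      calc Λ' / lam ^ 2 * (D' * (θ * lam) ^ 2) = Λ' * D' * θ * θ := by field_simp
        _ ≤ Λ' * D' * θ := mul_le_of_le_one_right (by positivity) hθ1
        _ ≤ _ := hθ2) hdiss
  obtain ⟨lA, hlA, hmA, hcA⟩ := StW.A_part h c (R₁ := 3 * (R * lam) / 2) (t₁ := t₁) (θ := θ * lam)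
    (P := P * lam ^ 2) hI (by positivity) hρ₁ (by linarith) hθl2 htot
  refine ⟨scale (2 / L) lA + scale 2 lH,
    valid_add (valid_scale (by positivity) hlA) (valid_scale (by norm_num) hlH), ?_, ?_⟩
  · rw [mass_add, Step.mass_scale, Step.mass_scale]
    have h1 : 2 / L * mass lA ≤ η * lam ^ 2 / 16 := by
      calc _ ≤ 2 / L * (9 * (P * lam ^ 2)) := by gcongr
        _ = _ := by rw [hL]; field_simp; norm_num
    have h2 : mass lH ≤ η * lam ^ 2 / 32 := by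
      calc _ ≤ 2016 * (δ * lam ^ 2 / κ) := hmH
        _ ≤ 2016 * (η * κ / 64512 * lam ^ 2 / κ) := by gcongr
        _ = _ := by field_simp; norm_num
    linarith
  rintro ⟨t, x⟩ hp hcase
  obtain ⟨ht, hx⟩ := hKs hp
  obtain ⟨hreg, hxc⟩ := hKr _ hp
  simp only at ht hx hxc hcase ⊢
  obtain ⟨s, hs0, hsm, hs1, hsep, hs2⟩ : ∃ s, 0 < s ∧ s ≤ m * lam ∧ ρ₁ ≤ s / σ ∧
      SepGE (M t) x s ∧ (Bad (M t) x s ∨ 1 + ε / 2 < densM μ x t (s / σ)) := by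
    rcases hcase with ⟨s, hs, hb⟩ | ⟨h1, h2⟩
    · obtain ⟨y, hy, hne, h2, h3⟩ := hb.2
      have h4 := (hT _ hp hx).le_of_cone hC₀ hy hne (by rw [h2, h3])
      rw [h2] at h4
      refine ⟨s, lt_of_lt_of_le (by positivity) h4, hs, k1.trans (by gcongr), hb.1, Or.inl hb⟩
    · exact ⟨τ, hτ, hτm, k2, h2, Or.inr (not_le.1 fun h3 =>
        h1 (hK₀d _ ⟨⟨ht, hx⟩, ht, mem_closedBall_iff_norm.2 hxc⟩ h3))⟩
  have hΓs := hΓm s hsm
  obtain ⟨ρ, hρ0, hρs, hρl, hρ⟩ := hBad μ M J I h hwh t x s hs0 hx hreg hsep hs2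
    ((Icc_sub hθl2 ht (by positivity) hΓs).trans hI)
  have hρ1 : ρ₁ ≤ ρ := by
    rcases hρl with h1 | h1
    · rwa [h1]
    · have : ¬ 2 * ρ ≤ ρ₀ := fun h2 => not_le.2 h1 (hG3 _ hp (2 * ρ) (by positivity) h2)
      linarith [not_le.1 this]
  have hq0 : 0 < Γ * ρ := by positivity
  have hq1 : Γ * ρ ≤ θ * lam := le_trans (by gcongr) hΓs
  rw [bar_add, Step.bar_scale, Step.bar_scale]
  have hn1 := bar_nonneg hlA t x
  have hn2 := bar_nonneg hlH t x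
  rcases hρ with hρ | hρ
  · have h1 := hcA x t _ ρ L hxc ht hq0 hq1 hρ1 hρ
    have h2 : 2 ≤ 2 / L * bar lA t x := by
      rw [div_mul_eq_mul_div, le_div_iff₀ hL0]; linarith
    linarith
  · have h4 := hcH x t _ hxc ht (hρ1.trans (le_mul_of_one_le_left hρ0.le hΓ)) hq1 hρ
    have h5 : 0 ≤ 2 / L * bar lA t x := by positivity
    linarith

theorem stepL_all : StepL :=
  stepL_of barrierW_all (badW_proof oneLeW_proof aiW_proof densW_proof) gapW_proof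

end Vale.Agent.P218L
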