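import Vale.Agent.P218L.Step

/-! Block T1 in the weak class, with the Gauss-Bonnet estimate in parabolic regions only. -/

open MeasureTheory Set Filter Topology Metric
open scoped ENNReal NNReal RealInnerProductSpace ContDiff

namespace Vale.Agent.P218L

open P218FT P218FT.TT P218G P218G.T1

/-- the weak class with the Gauss-Bonnet estimate near `(x₀, b)` at the parabolic scale -/
structure InL (D G ε r C : ℝ) (μ : ℝ → Measure E3) (M : ℝ → Set E3) (J : Set ℝ) (a b : ℝ)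
    (x₀ : E3) : Prop where
  wf : WF D μ M J (Ioo a b)
  white : White ε r C μ M (Ioo a b)
  lgb : ∀ K : ℝ, ∀ᶠ lam in 𝓝[>] (0 : ℝ), ∀ t ∈ J, b - 2 * lam ^ 2 ≤ t → t ≤ b - lam ^ 2 / 4096 →
    ∀ (p : E3) (ρ : ℝ), 0 < ρ → ‖p - x₀‖ + 2 * ρ ≤ K * lam → LB G (M t) p ρ

variable {D G ε r C a b : ℝ} {μ : ℝ → Measure E3} {M : ℝ → Set E3} {J I : Set ℝ} {x₀ : E3}

theorem InL.mono (h : InL D G ε r C μ M J a b x₀) {D' G' : ℝ} (hD : D ≤ D') (hG : G ≤ G') :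
    InL D' G' ε r C μ M J a b x₀ :=
  ⟨h.wf.mono_D hD, h.white, fun K => (h.lgb K).mono fun _ h1 t a1 a2 a3 p ρ a4 a5 =>
    (h1 t a1 a2 a3 p ρ a4 a5).mono hG⟩

theorem a2_le {Λ ρ ρ' : ℝ} {N : Set E3} {y : E3} (hA : AreaRatio D N) (hL : LB G N y ρ)
    (hρ : 0 < ρ) (hρ' : 2 * ρ ≤ ρ') (hΛ : 0 ≤ Λ) (h1 : Λ * (D * (2 * ρ) ^ 2) ≤ 1 / 2)
    (h2 : ∫⁻ x in ball y ρ', ENNReal.ofReal (‖Hv N x‖ ^ 2 - Λ) ∂(area N) ≤ ENNReal.ofReal (1 / 2)) :
    ∫⁻ x in ball y ρ, ENNReal.ofReal (a2 N x) ∂(area N) ≤ ENNReal.ofReal (2 * G) := by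
  have hH2 : ∫⁻ x in ball y (2 * ρ), ENNReal.ofReal (‖Hv N x‖ ^ 2) ∂(area N) ≤ 1 := by
    refine (lintegral_level _ _ _ hΛ (hA y _ (by positivity))).trans ?_
    refine (add_le_add ((lintegral_mono_set (ball_subset_ball hρ')).trans h2)
      (ENNReal.ofReal_le_ofReal h1)).trans ?_
    rw [← ENNReal.ofReal_add (by norm_num) (by norm_num)]
    norm_num
  refine le_trans hL ?_
  calc ENNReal.ofReal G * (1 + ∫⁻ x in ball y (2 * ρ),
        ENNReal.ofReal (‖Hv N x‖ ^ 2) ∂(area N)) ≤ ENNReal.ofReal G * (1 + 1) := by gcongr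
    _ = ENNReal.ofReal (2 * G) := by
        rw [one_add_one_eq_two, mul_comm, ENNReal.ofReal_mul (by norm_num)]
        simp

theorem m1 (hε : 0 < ε) (hε1 : ε ≤ 1) (hr : 0 < r) (hC : 0 < C) (hab : a < b)
    (hM : InL D G ε r C μ M J a b x₀) (R η : ℝ) (hη : 0 < η) : ∃ m : ℝ, 0 < m ∧
      ∀ᶠ lam in 𝓝[>] (0 : ℝ), CovW M (b - lam ^ 2) x₀ (R * lam) (m * lam) (η * lam ^ 2) := by
  have hstep := stepL_all
  have hdiss := dissW_proof
  obtain ⟨R', hR16, hRR⟩ : ∃ R', 16 ≤ R' ∧ R ≤ R' := ⟨_, le_max_right R 16, le_max_left _ _⟩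
  obtain ⟨η', hη0, hη1, hη2⟩ : ∃ η', 0 < η' ∧ η' ≤ 1 / 2 ∧ η' ≤ η :=
    ⟨min η (1 / 2), lt_min hη (by norm_num), min_le_right _ _, min_le_left _ _⟩
  obtain ⟨Λ, -, hΛ⟩ := hdiss D μ M J a b hab hM.wf x₀ (4 * R') (by linarith)
  obtain ⟨m₀, δ, hm₀, hδ, hS⟩ :=
    hstep D G ε r C R' Λ (η' / 4096) hε hε1 hr hC hR16 (by positivity)
  obtain ⟨l₀, hl₀, hl⟩ := ev_pos (((hΛ δ hδ).and (ev_time hab 2)).and (hM.lgb (4 * R')))
  set P : ℝ → ℝ → Prop := fun l m =>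
    CovW M (b - l ^ 2) x₀ (R' * l) (m * l) (η' * l ^ 2) with hP
  have Pmono : ∀ l m m', 0 < l → m' ≤ m → P l m → P l m' := fun l m m' h0 hm h =>
    covW_mono h (by simp) (by gcongr) le_rfl
  have step : ∀ l L m, 0 < l → 8 * l ≤ L → L ≤ 64 * l → L ≤ l₀ → 0 < m → m ≤ m₀ → P L m →
      P l (2 * m) := by
    intro l L m h0 h8 h64 h1 hm hmm h
    have hL : 0 < L := by linarith
    obtain ⟨⟨hd, ha⟩, hg⟩ := hl L hL h1
    have hl2 : 0 < l ^ 2 := by positivity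
    have q1 : 64 * l ^ 2 ≤ L ^ 2 := by nlinarith
    have q2 : L ^ 2 ≤ 4096 * l ^ 2 := by nlinarith
    have := hS μ M J _ hM.wf hM.white x₀ (b - L ^ 2) (b - l ^ 2) L m
      (fun t ht h2 => hg t ht (by linarith [h2.1]) (by linarith [h2.2]) x₀ _ (by positivity)
        (by rw [sub_self, norm_zero]; linarith)) hL hm hmm
      (fun t ht => ⟨by linarith [ht.1], by linarith [ht.2]⟩) (by linarith) (by linarith)
      ((dis2_mono' le_rfl (by simp) (by linarith) (by linarith)).trans hd)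
      (covW_mono h (by simp) le_rfl (by nlinarith))
    refine covW_mono this ?_ (by nlinarith) (by nlinarith)
    simp only [sub_self, norm_zero, add_zero]
    nlinarith
  have ha₀ := (hl l₀ hl₀ le_rfl).1.2
  have hl₀2 : 0 < l₀ ^ 2 := by positivity
  obtain ⟨t₂, ⟨ht1, ht2⟩, htJ⟩ := hM.wf.exists_Ioo (a := b - l₀ ^ 2) (b := b) (by linarith)
    fun t ht => ⟨by linarith [ht.1], ht.2⟩
  obtain ⟨L, hL0, hLt⟩ : ∃ L, 0 < L ∧ b - L ^ 2 = t₂ :=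
    ⟨√(b - t₂), Real.sqrt_pos.2 (by linarith), by rw [Real.sq_sqrt (by linarith)]; ring⟩
  have hL1 : L ≤ l₀ := (sq_le_sq₀ hL0.le hl₀.le).mp (by linarith)
  obtain ⟨s, hs, hsep⟩ := sepPos_proof M _ hM.wf.mcf t₂ t₂ x₀ (R' * L)
    (fun t ht => by rwa [le_antisymm ht.2 ht.1])
  obtain ⟨m₁, hm₁0, hm₁m, hm₁s⟩ : ∃ m₁, 0 < m₁ ∧ m₁ ≤ m₀ ∧ m₁ * L ≤ s :=
    ⟨min m₀ (s / L), lt_min hm₀ (by positivity), min_le_left _ _,
      (le_div_iff₀ hL0).1 (min_le_right _ _)⟩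
  have first : P L m₁ := by
    simp only [hP, hLt]
    refine ⟨0, fun s hs => by simp at hs, fun s hs => by simp at hs, ?_, fun x hx hxc hn => ?_⟩
    · simp only [mass, Multiset.map_zero, Multiset.sum_zero]
      positivity
    · exact absurd (sep_mono (hsep _ ⟨le_rfl, le_rfl⟩ x hx hxc) hm₁s)
        (hn (reg_of_mcf hM.wf.mcf htJ x))
  obtain ⟨l₁, hl₁, rfl⟩ : ∃ l₁, 0 < l₁ ∧ L = 8 * l₁ := ⟨L / 8, by positivity, by ring⟩
  have start : ∀ l, l₁ / 8 ≤ l → l ≤ l₁ → P l m₁ := fun l h1 h2 =>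
    Pmono l _ _ (by linarith) (by linarith)
      (step l _ m₁ (by linarith) (by linarith) (by linarith) hL1 hm₁0 hm₁m first)
  have step' : ∀ l m, 0 < l → 8 * l ≤ l₁ → 0 < m → m ≤ m₀ → P (8 * l) m → P l (2 * m) :=
    fun l m h0 h1 => step l _ m h0 le_rfl (by linarith) (by linarith)
  have all1 : ∀ n : ℕ, ∀ l, l₁ / 8 ^ (n + 1) ≤ l → l ≤ l₁ → P l m₁ := by
    intro n
    induction n with
    | zero => intro l h1 h2; exact start l (by simpa using h1) h2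
    | succ n ih =>
      intro l h1 h2
      have h0 : 0 < l := lt_of_lt_of_le (by positivity) h1
      by_cases h3 : l₁ / 8 ≤ l
      · exact start l h3 h2
      · have h4 : 8 * l ≤ l₁ := by linarith
        refine Pmono l _ _ h0 (by linarith) (step' l m₁ h0 h4 hm₁0 hm₁m (ih _ ?_ h4))
        rw [div_le_iff₀ (by positivity)] at h1 ⊢
        calc l₁ ≤ l * 8 ^ (n + 1 + 1) := h1
          _ = 8 * l * 8 ^ (n + 1) := by ring
  have all2 : ∀ k : ℕ, ∀ l, 0 < l → 8 ^ k * l ≤ l₁ → P l (min (2 ^ k * m₁) m₀) := by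
    intro k
    induction k with
    | zero =>
      intro l h0 h1
      obtain ⟨n, hn⟩ := pow_unbounded_of_one_lt (l₁ / l) (show (1 : ℝ) < 8 by norm_num)
      refine Pmono l _ _ h0 (by simp) (all1 n l ?_ (by simpa using h1))
      rw [div_lt_iff₀ h0] at hn
      rw [div_le_iff₀ (by positivity), pow_succ]
      nlinarith [mul_pos h0 (show (0 : ℝ) < 8 ^ n by positivity)]
    | succ k ih =>
      intro l h0 h1
      have h8 : (1 : ℝ) ≤ 8 ^ k := one_le_pow₀ (by norm_num)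
      have h2 : 8 ^ k * (8 * l) ≤ l₁ := by rw [pow_succ] at h1; linarith
      have h3 := step' l _ h0 (by nlinarith) (lt_min (by positivity) hm₀) (min_le_right _ _)
        (ih (8 * l) (by positivity) h2)
      refine Pmono l _ _ h0 ?_ h3
      rcases le_total (2 ^ k * m₁) m₀ with h | h
      · rw [min_eq_left h, pow_succ]
        exact (min_le_left _ _).trans (le_of_eq (by ring))
      · rw [min_eq_right h]
        exact (min_le_right _ _).trans (by linarith)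
  obtain ⟨K, hK⟩ := pow_unbounded_of_one_lt (m₀ / m₁) (show (1 : ℝ) < 2 by norm_num)
  rw [div_lt_iff₀ hm₁0] at hK
  refine ⟨m₀, hm₀, ev_of (show 0 < l₁ / 8 ^ K by positivity) fun l h0 h1 => ?_⟩
  have := all2 K l h0 (by rw [le_div_iff₀ (by positivity)] at h1; linarith)
  rw [min_eq_right hK.le] at this
  refine covW_mono this ?_ le_rfl (by gcongr)
  simp only [sub_self, norm_zero, add_zero]
  gcongr

/-- the covering at all scales between `lam` and `us n * lam` -/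
theorem cover {Λ η m₀ δs δ m₁ m l₂ R lam T t : ℝ} {y : E3}
    {n : ℕ} (hη : η ≤ 1 / 128) (hδs : 0 < δs) (hm : 0 < m) (hm₀ : m ≤ m₀) (hm₁ : m ≤ m₁)
    (hΛ : 0 ≤ Λ) (hR : 0 ≤ R) (hlam : 0 < lam) (hlam2 : 2 * lam ≤ l₂) (hδ : δ ≤ δs * us n ^ 2)
    (hS : ∀ (c : E3) (t₁ t₂ lam m : ℝ),
      (∀ t ∈ J, t ∈ Icc (t₁ - lam ^ 2) t₂ → LB G (M t) c (2 * 16 * lam)) → 0 < lam → 0 < m →
      m ≤ m₀ → Icc (t₁ - lam ^ 2) t₂ ⊆ I → lam ^ 2 / 2 ≤ t₂ - t₁ → t₂ - t₁ ≤ lam ^ 2 →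
      dis2 M (Λ / lam ^ 2) c (4 * 16 * lam) (t₁ - lam ^ 2) t₂ ≤ ENNReal.ofReal (δs * lam ^ 2) →
      CovW M t₁ c (16 * lam) (m * lam) (lam ^ 2 / 2) →
      CovW M t₂ c (16 * lam / 4) (m * lam / 4) (η * lam ^ 2))
    (hcov : ∀ l, 0 < l → l ≤ l₂ → CovW M (T + lam ^ 2 - l ^ 2) x₀
      ((R + 8) * l) (m₁ * l) (1 / 16 * l ^ 2))
    (hy : ‖y - x₀‖ ≤ R * lam) (hI : ∀ t, T - lam ^ 2 ≤ t → t ≤ T + lam ^ 2 / 2 → t ∈ I)
    (hloc : ∀ Λ' ρ a' b', Λ / lam ^ 2 ≤ Λ' → ρ ≤ 64 * lam → T - lam ^ 2 ≤ a' →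
      b' ≤ T + lam ^ 2 / 2 → dis2 M Λ' y ρ a' b' ≤ ENNReal.ofReal (δ * lam ^ 2))
    (hg : ∀ t ∈ J, T - lam ^ 2 ≤ t → t ≤ T + lam ^ 2 / 2 → ∀ ρ, 0 < ρ → ρ ≤ 16 * lam →
      LB G (M t) y ρ)
    (ht1 : T - lam ^ 2 / 4 ≤ t) (ht2 : t ≤ T) :
    ∀ j ≤ n, CovW M t y (us j * lam) (m / 4 * (us j * lam)) (η * (us j * lam) ^ 2) := by
  have hl2 : 0 < lam ^ 2 := by positivity
  refine chainW hlam hm hη ?_ ?_
  · intro j hj t₂ h1 h2 hcv
    have hu := us_pos j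
    have hun := us_pos n
    have hu2 : us j * lam ≤ 1 / 2 * lam := by gcongr; exact us_le j
    have hu3 : (us j * lam) ^ 2 ≤ (1 / 2 * lam) ^ 2 := by gcongr
    have hu5 : (us j * lam) ^ 2 ≤ lam ^ 2 / 4 := hu3.trans (le_of_eq (by ring))
    have hu4 : us n ^ 2 ≤ us j ^ 2 := by gcongr; exact us_anti hj
    refine hS y _ t₂ (us j * lam) m (fun s h3 hs => hg s h3 (by linarith [hs.1])
      (by linarith [hs.2]) _ (by positivity) (by linarith)) (by positivity) hm hm₀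
      (fun s hs => hI s (by linarith [hs.1]) (by linarith [hs.2])) h1 (by linarith) ?_ hcv
    refine (hloc _ _ _ _ ?_ (by linarith) (by linarith) (by linarith)).trans
      (ENNReal.ofReal_le_ofReal ?_)
    · gcongr
      linarith
    · calc δ * lam ^ 2 ≤ δs * us j ^ 2 * lam ^ 2 := by
            gcongr
            exact hδ.trans (by gcongr)
        _ = _ := by ring
  · rw [us_zero]
    have e0 : (1 / 2 * lam) ^ 2 = lam ^ 2 / 4 := by ring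
    have hpos : 0 ≤ T + lam ^ 2 - (t - (1 / 2 * lam) ^ 2) := by linarith
    have hsq := Real.sq_sqrt hpos
    set l := √(T + lam ^ 2 - (t - (1 / 2 * lam) ^ 2)) with hldef
    have hl0 : 0 ≤ l := Real.sqrt_nonneg _
    have h1 : lam ≤ l := (sq_le_sq₀ hlam.le hl0).mp (by linarith)
    have h2 : l ≤ 2 * lam := (sq_le_sq₀ hl0 (by positivity)).mp (by
      rw [show (2 * lam) ^ 2 = 4 * lam ^ 2 by ring]; linarith)
    have := hcov l (by linarith) (by linarith)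
    rw [show T + lam ^ 2 - l ^ 2 = t - (1 / 2 * lam) ^ 2 by linarith] at this
    refine covW_mono this ?_ ?_ (by linarith)
    · have := mul_le_mul_of_nonneg_left h1 (show 0 ≤ R + 8 by linarith)
      linarith
    · exact mul_le_mul hm₁ (by linarith) (by positivity) (by linarith)

theorem t0_pos (hD : 0 < D) (hG : 0 < G)
    (hε' : 0 < ε) (hε1 : ε ≤ 1) (hr' : 0 < r) (hC' : 0 < C) (hab : a < b)
    (hM : InL D G ε r C μ M J a b x₀) {R e : ℝ} (hR : 0 ≤ R) (hε : 0 < e) :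
    ∃ r : ℝ, 0 < r ∧ r ≤ 1 ∧ ∀ᶠ lam in 𝓝[>] (0 : ℝ),
      ∀ y : E3, ‖y - x₀‖ ≤ R * lam → densM μ y (b - lam ^ 2) (r * lam) ≤ 1 + e := by
  have hstep := stepL_all
  have hdiss := dissW_proof
  have hH := monoW_proof
  have hC : 0 < ∑' k, gcoef k := summable_gcoef.tsum_pos (fun k => (gcoef_pos k).le) 0 (gcoef_pos 0)
  obtain ⟨c₀, hc₀⟩ : ∃ c₀, c₀ = (∑' k, gcoef k) * D := ⟨_, rfl⟩
  have hc₀0 : 0 < c₀ := by rw [hc₀]; positivity
  obtain ⟨ηf, hηf, hF⟩ := finS D (e / 2) (by positivity)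
  obtain ⟨Λ, hΛ0, hΛ⟩ := hdiss D μ M J a b hab hM.wf x₀ (R + 64) (by linarith)
  obtain ⟨ηs, hηs0, hηs1, hηs2⟩ : ∃ ηs : ℝ, 0 < ηs ∧ ηs ≤ 1 / 128 ∧ c₀ * ηs ≤ ηf := by
    refine ⟨min (1 / 128) (ηf / c₀), lt_min (by norm_num) (by positivity), min_le_left _ _, ?_⟩
    calc c₀ * min (1 / 128) (ηf / c₀) ≤ c₀ * (ηf / c₀) := by gcongr; exact min_le_right _ _
      _ = ηf := by field_simp
  obtain ⟨m₀, δs, hm₀, hδs, hS⟩ := hstep D G ε r C 16 Λ ηs hε' hε1 hr' hC' le_rfl hηs0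
  obtain ⟨m₁, hm₁, hM1'⟩ := m1 hε' hε1 hr' hC' hab hM (R + 8) (1 / 16) (by norm_num)
  clear hε' hε1 hr' hC'
  obtain ⟨m, hm0, hmm₀, hmm₁⟩ : ∃ m : ℝ, 0 < m ∧ m ≤ m₀ ∧ m ≤ m₁ :=
    ⟨min m₀ m₁, lt_min hm₀ hm₁, min_le_left _ _, min_le_right _ _⟩
  obtain ⟨r, J', h, hr, hr1, hJ, hh, hF⟩ := hF (m / 4) (by positivity)
  obtain ⟨p, Kn, hflat⟩ := flat_scale hD (show 0 < 2 * G by positivity) (show 0 < J' by linarith) hh
  obtain ⟨L, c, ρ₁, hL, hc, hρ₁, htr⟩ := transferW hD hΛ0 (show 0 < e / 2 by positivity)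
  obtain ⟨p₀, q1, q2, q3, q4⟩ : ∃ p₀, Λ * (D * (2 * (J' * us p₀)) ^ 2) ≤ 1 / 2 ∧
      2 * (J' * us p₀) ≤ 64 ∧ L * us p₀ ≤ 64 ∧ us p₀ ≤ ρ₁ :=
    ((ev_small (f := fun u => Λ * (D * (2 * (J' * u)) ^ 2)) (by fun_prop) (by simp)
      (by norm_num)).and
      ((ev_small (f := fun u => 2 * (J' * u)) (by fun_prop) (by simp) (by norm_num)).and
      ((ev_small (f := fun u => L * u) (by fun_prop) (by simp) (by norm_num)).and
      (ev_small (f := fun u => u) (by fun_prop) rfl hρ₁)))).exists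
  obtain ⟨n, hn⟩ : ∃ n, n = p₀ + p * Kn := ⟨_, rfl⟩
  obtain ⟨r₀, hr₀⟩ : ∃ r₀, r₀ = r * us n := ⟨_, rfl⟩
  have hun := us_pos n
  have hr₀0 : 0 < r₀ := by rw [hr₀]; positivity
  have hr₀u : r₀ ≤ us n := by rw [hr₀]; exact mul_le_of_le_one_left hun.le hr1
  have hr₀h : r₀ ≤ 1 / 2 := hr₀u.trans (us_le n)
  obtain ⟨δ, hδ0, hδ1, hδ2, hδ3⟩ : ∃ δ : ℝ, 0 < δ ∧ δ ≤ δs * us n ^ 2 ∧ δ ≤ r₀ ^ 2 / 4 ∧
      δ ≤ c * r₀ ^ 2 :=
    ⟨min (δs * us n ^ 2) (min (r₀ ^ 2 / 4) (c * r₀ ^ 2)),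
      lt_min (by positivity) (lt_min (by positivity) (by positivity)), min_le_left _ _,
      (min_le_right _ _).trans (min_le_left _ _), (min_le_right _ _).trans (min_le_right _ _)⟩
  obtain ⟨l₁, hl₁, hl⟩ := ev_pos (((hΛ δ hδ0).and (ev_time hab 2)).and (hM.lgb (R + 64)))
  obtain ⟨l₂, hl₂, hcov⟩ := ev_pos hM1'
  refine ⟨r₀, hr₀0, by linarith, ev_of (lt_min hl₁ (half_pos hl₂)) fun lam hlam hle y hy => ?_⟩
  obtain ⟨⟨hd, ha⟩, hg⟩ := hl lam hlam (hle.trans (min_le_left _ _))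
  have hlam2 : 2 * lam ≤ l₂ := by linarith only [hle.trans (min_le_right _ _)]
  have hl2 : 0 < lam ^ 2 := by positivity
  obtain ⟨T, hT⟩ : ∃ T, T = b - lam ^ 2 := ⟨_, rfl⟩
  rw [← hT]
  have hI : ∀ t, T - lam ^ 2 ≤ t → t ≤ T + lam ^ 2 / 2 → t ∈ Ioo a b := fun t h1 h2 =>
    ⟨by linarith only [h1, ha, hT], by linarith only [h2, hT, hl2]⟩
  have hloc : ∀ Λ' ρ a' b', Λ / lam ^ 2 ≤ Λ' → ρ ≤ 64 * lam → T - lam ^ 2 ≤ a' →
      b' ≤ T + lam ^ 2 / 2 → dis2 M Λ' y ρ a' b' ≤ ENNReal.ofReal (δ * lam ^ 2) :=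
    fun Λ' ρ a' b' h1 h2 h3 h4 =>
      (dis2_mono' h1 (by linarith only [h2, hy]) (by linarith only [h3, hT])
        (by linarith only [h4, hT, hl2])).trans hd
  have hg' : ∀ t ∈ J, T - lam ^ 2 ≤ t → t ≤ T + lam ^ 2 / 2 → ∀ ρ, 0 < ρ → 2 * ρ ≤ 64 * lam →
      LB G (M t) y ρ := fun t h0 h1 h2 ρ h3 h4 =>
    hg t h0 (by linarith only [h1, hT]) (by linarith only [h2, hT, hl2]) y ρ h3
      (by linarith only [h4, hy])
  have hr2 : (r₀ * lam) ^ 2 ≤ lam ^ 2 / 4 := by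
    calc (r₀ * lam) ^ 2 ≤ (1 / 2 * lam) ^ 2 := by gcongr
      _ = _ := by ring
  have hr3 : 0 < (r₀ * lam) ^ 2 := by positivity
  have hδ4 : δ * lam ^ 2 ≤ (r₀ * lam) ^ 2 / 4 := by
    calc δ * lam ^ 2 ≤ r₀ ^ 2 / 4 * lam ^ 2 := by gcongr
      _ = _ := by ring
  obtain ⟨t, ⟨ht1, ht2⟩, htJ, hgt⟩ := exists_timeJ hM.wf _
    (fun s hs => hI s (by linarith only [hs.1, hr2, hl2]) (by linarith only [hs.2, hl2]))
    (show (0 : ℝ) ≤ 1 / 2 by norm_num) (by positivity)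
    (show δ * lam ^ 2 < 1 / 2 * (T - (T - (r₀ * lam) ^ 2)) by linarith only [hδ4, hr3])
    (diss_le_dis2.trans (hloc _ (64 * lam) (T - (r₀ * lam) ^ 2) T le_rfl le_rfl
      (by linarith only [hr2, hl2]) (by linarith only [hl2])))
  have hAt := hM.wf.areaRatio htJ
  have hsurf := hM.wf.isSurf htJ
  have hch := cover hηs1 hδs hm0 hmm₀ hmm₁ hΛ0 hR hlam hlam2 hδ1 (hS μ M J _ hM.wf hM.white)
    (by rw [hT, sub_add_cancel]; exact hcov) hy hI hloc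
    (fun t h0 h1 h2 ρ h3 h4 => hg' t h0 h1 h2 ρ h3 (by linarith only [h4, hlam]))
    (by linarith only [ht1, hr2]) ht2
  have hu0 := us_pos p₀
  obtain ⟨j, hj1, hj2, hfl⟩ := hflat (M t) hAt y lam p₀ hlam (by
    have h64 : 2 * (J' * (us p₀ * lam)) ≤ 64 * lam := by
      calc 2 * (J' * (us p₀ * lam)) = 2 * (J' * us p₀) * lam := by ring
        _ ≤ 64 * lam := by gcongr
    refine a2_le hAt (hg' t htJ (by linarith only [ht1, hr2, hl2]) (by linarith only [ht2, hl2]) _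
      (by positivity) h64) (by positivity) h64 (by positivity) ?_ hgt
    refine le_trans (le_of_eq ?_) q1
    field_simp)
  rw [← hn] at hj2
  have huj := us_pos j
  have hg1 : gA (M t) y (r * (us j * lam)) ≤ 1 + e / 2 := by
    refine hF (M t) hsurf hAt y _ (by positivity) hfl
      ((cov_area hD.le hsurf.1 hAt (cov_of_covW (hch j hj2))).trans (ENNReal.ofReal_le_ofReal ?_))
    rw [← mul_assoc, ← hc₀]
    gcongr
  obtain ⟨σ, hσ⟩ : ∃ σ, σ = r * (us j * lam) := ⟨_, rfl⟩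
  rw [← hσ, ← gM_area, ← hM.wf.eq t htJ] at hg1
  have hσ0 : 0 < σ := by rw [hσ]; positivity
  have hσ1 : r₀ * lam ≤ σ := by
    rw [hr₀, mul_assoc, hσ]
    gcongr
    exact us_anti hj2
  have hσ2 : σ ≤ us p₀ * lam := by
    rw [hσ]
    refine (mul_le_of_le_one_left (by positivity) hr1).trans ?_
    gcongr
    exact us_anti hj1
  have hσ3 : σ ≤ 1 / 2 * lam := hσ2.trans (by gcongr; exact us_le p₀)
  have hσ4 : (r₀ * lam) ^ 2 ≤ σ ^ 2 := by gcongr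
  have hσ5 : σ ^ 2 ≤ lam ^ 2 / 4 := by
    calc σ ^ 2 ≤ (1 / 2 * lam) ^ 2 := by gcongr
      _ = _ := by ring
  have hσ6 : L * σ ≤ 64 * lam := by
    calc L * σ ≤ L * (us p₀ * lam) := by gcongr
      _ = L * us p₀ * lam := by ring
      _ ≤ 64 * lam := by gcongr
  have hσ7 : δ * lam ^ 2 ≤ c * σ ^ 2 := by
    calc δ * lam ^ 2 ≤ c * r₀ ^ 2 * lam ^ 2 := by gcongr
      _ = c * (r₀ * lam) ^ 2 := by ring
      _ ≤ c * σ ^ 2 := by gcongr
  have hg2 := htr μ M J _ hM.wf y lam σ (T - lam ^ 2) (T - σ ^ 2) t (T + lam ^ 2 / 2) hlam hσ0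
    (hσ2.trans (by gcongr)) (by linarith only [hσ5, hl2]) (by linarith only [hσ4, ht1])
    (by linarith only [ht2, hl2]) (by linarith only [ht2]) (fun s hs => hI s hs.1.le hs.2.le)
    ((hloc _ _ _ _ le_rfl hσ6 le_rfl le_rfl).trans (ENNReal.ofReal_le_ofReal hσ7))
  have hmono := hH D μ M J _ hM.wf y T _ _ (show 0 < r₀ * lam by positivity) hσ1
    (fun s hs => hI s (by linarith only [hs.1, hσ5, hl2]) (by linarith only [hs.2, hr3, hl2]))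
  refine hmono.trans ?_
  unfold densM
  linarith only [hg1, hg2]

theorem t1 (hε : 0 < ε) (hε1 : ε ≤ 1) (hr : 0 < r) (hC : 0 < C) (hab : a < b)
    (hM : InL D G ε r C μ M J a b x₀) (R : ℝ) :
    ∃ r' C' t₁ : ℝ, 0 < r' ∧ 0 < C' ∧ t₁ < b ∧ ∀ t ∈ Ioo t₁ b, ∀ x ∈ M t,
      ‖x - x₀‖ ≤ R * √(b - t) → Reg M (t, x) ∧ TwoPt (M t) x (r' * √(b - t)) (C' / √(b - t)) := by
  have hH := monoW_proof
  obtain ⟨r₀, hr₀, hr₁, hT⟩ := t0_pos (lt_max_of_lt_right one_pos) (lt_max_of_lt_right one_pos)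
    hε hε1 hr hC hab (hM.mono (le_max_left D 1) (le_max_left G 1)) (R := |R| + 3)
    (by positivity) hε
  obtain ⟨l₁, hl₁, hl⟩ := ev_pos (hT.and (ev_time hab 2))
  refine ⟨r * r₀, C / r₀, b - (l₁ / 3) ^ 2, by positivity, by positivity,
    by nlinarith [sq_pos_of_pos (show 0 < l₁ / 3 by positivity)], fun t ht x hx hxR => ?_⟩
  have hbt : 0 < b - t := sub_pos.mpr ht.2
  have hsq := Real.sq_sqrt hbt.le
  set lam := √(b - t) with hlamdef
  have hlam : 0 < lam := Real.sqrt_pos.mpr hbt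
  have hlam1 : lam ≤ l₁ / 3 := (sq_le_sq₀ hlam.le (by positivity)).mp (by linarith [ht.1])
  have hσ0 : 0 < r₀ * lam := by positivity
  have hσ1 : r₀ * lam ≤ lam := mul_le_of_le_one_left hlam.le hr₁
  have hσ2 : (r₀ * lam) ^ 2 ≤ lam ^ 2 := by gcongr
  have ha := (hl (3 * lam) (by positivity) (by linarith)).2
  have hl2 : 0 < lam ^ 2 := by positivity
  have := hM.white x t (r₀ * lam) hσ0
    (fun s hs => ⟨by nlinarith [hs.1], by linarith [hs.2]⟩) (by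
      intro y hy t' ht'
      have hpos : 0 ≤ b - t' := by linarith [ht'.2]
      have hsq' := Real.sq_sqrt hpos
      set l := √(b - t') with hldef
      have hl0 : 0 ≤ l := Real.sqrt_nonneg _
      have h1 : lam ≤ l := (sq_le_sq₀ hlam.le hl0).mp (by linarith [ht'.2])
      have h2 : l ≤ 2 * lam := (sq_le_sq₀ hl0 (by positivity)).mp (by nlinarith [ht'.1])
      have h3 := (hl l (by linarith) (by linarith)).1 y (by
        have h4 := mem_ball_iff_norm.mp hy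
        have h5 : ‖y - x₀‖ ≤ ‖y - x‖ + ‖x - x₀‖ := by
          rw [show y - x₀ = (y - x) + (x - x₀) by abel]
          exact norm_add_le _ _
        have h6 : R * lam ≤ |R| * l :=
          mul_le_mul (le_abs_self R) h1 hlam.le (abs_nonneg R)
        nlinarith)
      rw [show b - l ^ 2 = t' by linarith] at h3
      have h7 : (r₀ * l) ^ 2 ≤ l ^ 2 := by
        gcongr
        exact mul_le_of_le_one_left hl0 hr₁
      have h8 : l ^ 2 ≤ (2 * lam) ^ 2 := by gcongr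
      refine (hH D μ M J _ hM.wf y t' _ _ hσ0 (by gcongr) fun s hs => ⟨?_, ?_⟩).trans h3
      · nlinarith [hs.1]
      · nlinarith [hs.2, ht'.2, sq_pos_of_pos hσ0]) t ⟨by linarith [sq_nonneg (r₀ * lam)], le_rfl⟩
    x hx (mem_ball_self hσ0)
  rwa [← mul_assoc, ← div_div] at this

end Vale.Agent.P218L
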